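import Vale.Agent.P141.H43.SeamPM
import Vale.Agent.P141.H505.SkelStack1
import Vale.Agent.P141.H733.RawSum

/-!
# P141, line (A), flow part: hub `x3`, from the pair theorem to the sums of the stage

`wgt_Q` : the weight `ε² + Q²` in the letters of `H505.Sk1.Wgt`; `seam_one` : one `x0`;
`RX_CA_num` : the sum over `x0`, raw partner `A`, from the numbers of the stack at every `x0`.
-/

namespace Vale.Agent.P141.H87

open Finset Matrix Vale.Agent.P075 Vale.Agent.P141.PL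
open Vale.Agent.P141.PL.H588 (hd Pl)
open Vale.Agent.P141.H958 (lbs)
open Vale.Agent.P141.H103 (GW QW PA)
open Vale.Agent.P141.H747 (sL RgS MA MC shA shB shC sG RgS_mart)
open Vale.Agent.P141.H585.PairCh (phs)
open Vale.Agent.P141.H389 (gAC)
open Vale.Agent.P141.H677.Sk (FamA FamV Slt)
open Vale.Agent.P141.H795 (ys)
open Vale.Agent.P141.H581 (RX)
open Vale.Agent.P141.H43.Seam (WQ MQ NQ wf_Q gAC_hd RX_z pl_grid)
open Vale.Agent.P141.H505.Sk1 (Wgt Num NumA PairACr W3)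

noncomputable section

variable {κ : Type} [Fintype κ] [DecidableEq κ]

/-- the weight field of the stack -/
theorem wgt_Q (N : ℕ) {ε : ℝ} (hε : 0 < ε) {Q : ℕ → ℤ → ℤ → Matrix κ κ ℝ}
    (hs : ∀ k n x, (Q k n x)ᵀ = Q k n x)
    (h : ∀ k n x, Q (k + 1) n x = (1 / 2 : ℝ) • (Q k (2 * n) x + Q k (2 * n + 1) x)) :
    Wgt N (ε ^ 2) (WQ ε Q) (NQ Q) (MQ Q) (fun _ _ _ => 0) where
  pos := by positivity
  ge x k m := by
    unfold H43.Seam.WQ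
    rw [add_sub_cancel_left]
    have := posSemidef_conjTranspose_mul_self (Q k m x)
    rwa [conjTranspose_eq_transpose_of_trivial] at this
  wf := wf_Q N hε.ne' hs h

omit [Fintype κ] [DecidableEq κ] in
/-- the averaged slot is symmetric -/
theorem RgS_symm {R : Slt κ} {x0 : ℤ} (hR : ∀ z x, (R x0 0 z x)ᵀ = R x0 0 z x) (h h1 : ℤ)
    (k : ℕ) (n x : ℤ) : (RgS R h h1 x0 k n x)ᵀ = RgS R h h1 x0 k n x := by
  unfold H747.RgS
  rw [transpose_smul, transpose_sum]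
  simp only [hR]

/-- **One `x0`, hub `x3`, raw partner `A`.** -/
theorem seam_one {K₀ : ℝ} (hP : PairACr K₀) {N : ℕ} {r1 r2 r3 : ℤ} {pl : ℕ → ℤ} (hpl : Pl pl)
    {ε : ℝ} (hε : 0 < ε) {Q : ℕ → ℤ → ℤ → Matrix κ κ ℝ} (hs : ∀ k n x, (Q k n x)ᵀ = Q k n x)
    (h : ∀ k n x, Q (k + 1) n x = (1 / 2 : ℝ) • (Q k (2 * n) x + Q k (2 * n + 1) x))
    {A : ℕ → ℤ → ℤ → ℝ} {b C : ℕ → ℤ → ℤ → κ → ℝ} {E EA cC t2 x2 : ℝ} {J : ℕ}
    (hn : Num 0 N r1 r2 r3 pl (fun k y z => A k z y) b (fun k x z => C k z x) (WQ ε Q) (MQ Q)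
      (fun _ _ _ => 0) E cC)
    (hA : NumA 0 N r1 r2 r3 pl (fun k y z => A k z y) (fun k x z => C k z x) t2 EA)
    (hx : 0 < x2) (ht : 0 < t2) (hJ : cC ^ 2 ≤ 4 ^ J * x2) :
    ∑ k ∈ Ico 0 N, GW N r2 r3 r1 (k + 1) (pl (k + 1))
      (gAC (fun y z => A (k + 1) z y) (fun x z => C (k + 1) z x) (WQ ε Q) x2 k (k + 1) (k + 1))
      ≤ K₀ * (J + 1) ^ 3 * (√(x2 * E * (t2 * EA)) + t2 * E) := by
  have h1 := hP 0 N r1 r2 r3 pl (ε ^ 2) (fun k y z => A k z y) b (fun k x z => C k z x) (WQ ε Q)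
    (NQ Q) (MQ Q) (fun _ _ _ => 0) E EA cC t2 x2 J (Nat.zero_le N) hpl (wgt_Q N hε hs h) hn hA hx
    ht hJ
  refine le_trans (le_of_eq ?_) h1
  refine sum_congr rfl fun k _ => ?_
  refine congrArg _ (funext fun n => funext fun n' => funext fun m => ?_)
  rw [gAC_hd]
  rfl

/-- **Hub `x3`, the sum over `x0`**: `RX` of the stack against `A` from the numbers at every
`x0`. -/
theorem RX_CA_num {K₀ : ℝ} (hP : PairACr K₀) (hK : 0 ≤ K₀) {L : ℕ} {e : κ ⊕ κ → ℤ}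
    (he : Function.Injective e) (hm : ∀ i, e i ∈ lbs L) {K : ℕ} {M : Pt} {R : Slt κ} {A : FamA}
    {C : FamV κ} {b' : ℤ → ℕ → ℤ → ℤ → κ → ℝ} {ε : ℝ} (hε : 0 < ε) {s : Pt} {t j : ℤ}
    (hj : j ∈ Icc (0 : ℤ) 2) {q : Pt}
    (hR : ∀ x0 ∈ iv K t, ∀ z x, (R x0 0 z x)ᵀ = R x0 0 z x) {EN EAN : ℤ → ℝ} {E EA cC : ℝ}
    (nE : ∀ x0, 0 ≤ EN x0) (nA : ∀ x0, 0 ≤ EAN x0) {x τ : ℝ} (hx : 0 < x) (hτ : 0 < τ) {J : ℕ}
    (hJ : cC ^ 2 ≤ 4 ^ J * x ^ 2)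
    (hn : ∀ x0 ∈ iv K t, Num 0 K (M.1 - q.1) (M.2.1 - q.2.1) (M.2.2 - q.2.2)
      (fun k => ix k (ys (-x0) s) - j) (fun k y z => shA K M s (A x0) k z y) (b' x0)
      (fun k x z => shC K M s (C x0) k z x) (WQ ε (RgS R s.2.2 s.1 x0))
      (MQ (RgS R s.2.2 s.1 x0)) (fun _ _ _ => 0) (EN x0) cC)
    (hA : ∀ x0 ∈ iv K t, NumA 0 K (M.1 - q.1) (M.2.1 - q.2.1) (M.2.2 - q.2.2)
      (fun k => ix k (ys (-x0) s) - j) (fun k y z => shA K M s (A x0) k z y)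
      (fun k x z => shC K M s (C x0) k z x) (τ ^ 2) (EAN x0))
    (sE : ∑ x0 ∈ iv K t, EN x0 ≤ E) (sA : ∑ x0 ∈ iv K t, EAN x0 ≤ EA) :
    RX (iv K t) (K + L) (fun x0 => sL L (sG K M (-x0) s j q)) x τ (MC K M R C L e ε s)
      (MA K M A L s) ≤
    4 ^ L * (K₀ * (J + 1) ^ 3 * (√(x ^ 2 * E * (τ ^ 2 * EA)) + τ ^ 2 * E)) := by
  refine (RX_z K M R A C he hm ε s t j q x hτ).trans ?_
  refine mul_le_mul_of_nonneg_left ?_ (by positivity)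
  have h0 : ∀ x0 ∈ iv K t, (∑ k ∈ Ico 0 K,
      GW K (M.2.1 - q.2.1) (M.2.2 - q.2.2) (M.1 - q.1) (k + 1) (ix (k + 1) (ys (-x0) s) - j)
        (gAC (fun y z => shA K M s (A x0) (k + 1) z y) (fun x z => shC K M s (C x0) (k + 1) z x)
          (WQ ε (RgS R s.2.2 s.1 x0)) (x ^ 2) k (k + 1) (k + 1))) ≤
      (K₀ * (J + 1) ^ 3) * (√(x ^ 2 * EN x0 * (τ ^ 2 * EAN x0)) +
        √(x ^ 2 * (fun _ : ℤ => (0 : ℝ)) x0 * (τ ^ 2 * (fun _ : ℤ => (0 : ℝ)) x0)) +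
        τ ^ 2 * (EN x0 + (fun _ : ℤ => (0 : ℝ)) x0)) := by
    intro x0 h0
    have h1 := seam_one (Q := RgS R s.2.2 s.1 x0) hP (pl_grid x0 s hj) hε
      (fun k n x => RgS_symm (hR x0 h0) s.2.2 s.1 k n x)
      (fun k n x => RgS_mart R s.2.2 s.1 x0 k n x) (hn x0 h0) (hA x0 h0)
      (x2 := x ^ 2) (t2 := τ ^ 2) (by positivity) (by positivity) hJ
    refine h1.trans (le_of_eq ?_)
    simp only [mul_zero, Real.sqrt_zero, add_zero]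
  have h2 := H733.raw_form (Λ := K₀ * (J + 1) ^ 3) (x := x) (τ := τ) (by positivity) nE nA
    (fun _ => le_rfl) (fun _ => le_rfl) (fun _ => le_rfl) h0
  simp only [sum_const_zero, add_zero] at h2
  refine h2.trans ?_
  have pE : 0 ≤ ∑ x0 ∈ iv K t, EN x0 := sum_nonneg fun i _ => nE i
  have pA : 0 ≤ ∑ x0 ∈ iv K t, EAN x0 := sum_nonneg fun i _ => nA i
  refine mul_le_mul_of_nonneg_left (add_le_add (Real.sqrt_le_sqrt ?_) ?_) (by positivity)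
  · exact mul_le_mul (mul_le_mul_of_nonneg_left sE (sq_nonneg x))
      (mul_le_mul_of_nonneg_left sA (sq_nonneg τ)) (by positivity)
      (mul_nonneg (sq_nonneg x) (pE.trans sE))
  · exact mul_le_mul_of_nonneg_left sE (sq_nonneg τ)

end

end Vale.Agent.P141.H87
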